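import Vale.Agent.P344.Main

/-!
P344: the discrete Fourier transform has linear circuits of size `O(n (log n) ^ (1 - 10 ^ (-8)))`.
-/

namespace Vale.Agent.Results.P344.PowerSaving

open Filter

/-- A gate: sum or difference of two earlier values, or a scalar multiple of an earlier value.
Earlier values are referred to by their position in the list of values computed so far. -/
inductive Gate : Type
  | add (i j : ℕ)
  | sub (i j : ℕ)
  | smul (c : ℂ) (i : ℕ)

/-- The value of a gate, given the list of values computed so far (a position outside the list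
reads the constant `0`). -/
def Gate.eval (v : List ℂ) : Gate → ℂ
  | .add i j => v.getD i 0 + v.getD j 0
  | .sub i j => v.getD i 0 - v.getD j 0
  | .smul c i => c * v.getD i 0

/-- Run a list of gates: each gate appends its value to the list of computed values. -/
def run (v : List ℂ) : List Gate → List ℂ
  | [] => v
  | g :: p => run (v ++ [g.eval v]) p

/-- The circuit `p`, started on the constant `0` and the inputs `x 0, …, x (n - 1)`, computes the
unnormalized discrete Fourier transform at designated positions `out k`. -/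
def Computes (n : ℕ) (p : List Gate) : Prop :=
  ∃ out : Fin n → ℕ, ∀ (x : Fin n → ℂ) (k : Fin n), (run (0 :: List.ofFn x) p).getD (out k) 0 =
    ∑ j : Fin n, Complex.exp (2 * Real.pi * Complex.I / n) ^ (k.val * j.val) * x j

/-- The least number of gates of a linear circuit computing the transform of length `n`. -/
noncomputable def L (n : ℕ) : ℕ := sInf {c | ∃ p, Computes n p ∧ p.length = c}

theorem bridge {X : Type} {c : ℕ} {S T : Set (X → ℂ)} (h : P344.R c S T) :
    ∀ l : List (X → ℂ), (∀ f ∈ S, f ∈ l) → ∃ p : List Gate, p.length ≤ c ∧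
      ∀ t ∈ T, ∃ i, ∀ x, (run (l.map (· x)) p).getD i 0 = t x := by
  have key : ∀ (l : List (X → ℂ)) f, f ∈ l → ∃ i, ∀ x, (l.map (· x)).getD i 0 = f x := by
    intro l f hf
    obtain ⟨i, hi, rfl⟩ := List.getElem_of_mem hf
    exact ⟨i, fun x => by simp [hi]⟩
  induction h with
  | base c S T h => exact fun l hl => ⟨[], by simp, fun t ht => key l t (hl t (h ht))⟩
  | step c S T g h _ ih =>
    intro l hl
    obtain ⟨p, h1, h2⟩ := ih (l ++ [g]) (by
      rintro f (rfl | hf)
      · simp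
      · simp [hl f hf])
    obtain ⟨u, hu, v, hv, h⟩ := h
    obtain ⟨i, hi⟩ := key l u (hl u hu)
    obtain ⟨j, hj⟩ := key l v (hl v hv)
    obtain ⟨G, hG⟩ : ∃ G : Gate, ∀ x, G.eval (l.map (· x)) = g x := by
      rcases h with rfl | rfl | ⟨c, rfl⟩
      exacts [⟨.add i j, fun x => by rw [Gate.eval, hi, hj]; rfl⟩,
        ⟨.sub i j, fun x => by rw [Gate.eval, hi, hj]; rfl⟩,
        ⟨.smul c i, fun x => by rw [Gate.eval, hi]; rfl⟩]
    exact ⟨G :: p, by simpa using h1, fun t ht => by simpa [run, hG] using h2 t ht⟩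

theorem result :
    (∃ C : ℝ, ∀ n ≥ 2, (∃ p, Computes n p) ∧
      (L n : ℝ) ≤ C * n * Real.logb 2 n ^ (1 - 1 / 10 ^ 8 : ℝ)) ∧
    ¬ ∃ c : ℝ, 0 < c ∧ ∀ᶠ n : ℕ in atTop, c * n * Real.logb 2 n ≤ L n := by
  obtain ⟨C, hC⟩ := P344.main
  have h : ∀ n ≥ 2, (∃ p, Computes n p) ∧
      (L n : ℝ) ≤ C * n * Real.logb 2 n ^ (1 - 1 / 10 ^ 8 : ℝ) := fun n hn => by
    obtain ⟨c, h1, h2⟩ := hC ((Fin n → ℂ) → ℂ) n hn (Complex.exp (2 * Real.pi * Complex.I / n))
      (Complex.exp_ne_zero _) fun j x => x j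
    obtain ⟨p, h3, h4⟩ := bridge h2 (0 :: List.ofFn fun j x => x j) (by
      rintro f (rfl | ⟨j, rfl⟩) <;> simp)
    choose out h5 using fun k => h4 _ ⟨k, rfl⟩
    have h6 : Computes n p := ⟨out, fun x k => by
      simpa [P344.ac, P344.ft, List.map_ofFn, Function.comp_def] using h5 k x⟩
    have h7 : L n ≤ p.length := Nat.sInf_le ⟨p, h6, rfl⟩
    exact ⟨⟨p, h6⟩, le_trans (by exact_mod_cast h7.trans h3) h1⟩
  refine ⟨⟨C, h⟩, fun ⟨c, c0, hc⟩ => ?_⟩
  have h1 : Tendsto (fun n : ℕ => Real.logb 2 n ^ (1 / 10 ^ 8 : ℝ)) atTop atTop :=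
    (tendsto_rpow_atTop (by norm_num)).comp
      ((Real.tendsto_logb_atTop one_lt_two).comp tendsto_natCast_atTop_atTop)
  obtain ⟨n, h2, h3, h4⟩ := (hc.and ((h1.eventually_gt_atTop (C / c)).and
    (eventually_ge_atTop 2))).exists
  have n0 : (1 : ℝ) < n := by exact_mod_cast h4
  have g0 := Real.logb_pos one_lt_two n0
  have h5 := h2.trans (h n h4).2
  have h6 : Real.logb 2 n = Real.logb 2 n ^ (1 / 10 ^ 8 : ℝ) *
      Real.logb 2 n ^ (1 - 1 / 10 ^ 8 : ℝ) := by rw [← Real.rpow_add g0]; simp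
  have h7 := mul_lt_mul_of_pos_right ((div_lt_iff₀' c0).1 h3)
    (show 0 < n * Real.logb 2 n ^ (1 - 1 / 10 ^ 8 : ℝ) by positivity)
  nth_rw 1 [h6] at h5
  linarith

end Vale.Agent.Results.P344.PowerSaving
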